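import Mathlib

namespace Vale.Agent.Results.P339.SmallAlphabets

open Finset

/-- `p : [2q] → [q]` is 2-to-1: every label on the right has exactly two preimages. -/
def IsTwoToOne {q : ℕ} (p : Fin (2 * q) → Fin q) : Prop :=
  ∀ b : Fin q, (univ.filter (fun a => p a = b)).card = 2

/-- The probability (with respect to `w`) that a random constraint of the game
`(src, tgt, p, w)` is satisfied by the labeling `(A, B)`. -/
noncomputable def satProb {q : ℕ} {U V E : Type} [Fintype E] (src : E → U) (tgt : E → V)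
    (p : E → Fin (2 * q) → Fin q) (w : E → ℝ) (A : U → Fin (2 * q)) (B : V → Fin q) : ℝ :=
  ∑ e, if p e (A (src e)) = B (tgt e) then w e else 0

/-- high bit of a label in `[4]` -/
def hiBit (a : Fin (2 * 2)) : ZMod 2 := ((a.val / 2 : ℕ) : ZMod 2)

/-- low bit of a label in `[4]` -/
def loBit (a : Fin (2 * 2)) : ZMod 2 := ((a.val % 2 : ℕ) : ZMod 2)

/-- a label in `[2]` as an element of the field with two elements -/
def oneBit (b : Fin 2) : ZMod 2 := ((b.val : ℕ) : ZMod 2)

private lemma local_affine : ∀ p : Fin (2 * 2) → Fin 2, IsTwoToOne p →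
    ∃ α β γ : ZMod 2, (α ≠ 0 ∨ β ≠ 0) ∧
      ∀ a b, p a = b ↔ α * hiBit a + β * loBit a + oneBit b = γ := by
  unfold IsTwoToOne hiBit loBit oneBit
  decide

private lemma value_ge {q : ℕ} (hq : 2 ≤ q) {U V E : Type} [Fintype E] (src : E → U)
    (tgt : E → V) (p : E → Fin (2 * q) → Fin q) (w : E → ℝ) (hsum : ∑ e, w e = 1) :
    ∃ (A : U → Fin (2 * q)) (B : V → Fin q), (1 : ℝ) / q ≤ satProb src tgt p w A B := by
  classical
  have hq0 : 0 < q := by omega
  let A : U → Fin (2 * q) := fun _ => ⟨0, by omega⟩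
  have htot : ∑ b : Fin q, satProb src tgt p w A (fun _ => b) = 1 := by
    unfold satProb
    rw [Finset.sum_comm]
    rw [← hsum]
    refine Finset.sum_congr rfl (fun e _ => ?_)
    simp
  by_contra hcon
  push Not at hcon
  have hlt : ∀ b : Fin q, satProb src tgt p w A (fun _ => b) < 1 / q := fun b => hcon A _
  have : Nonempty (Fin q) := ⟨⟨0, hq0⟩⟩
  have : ∑ b : Fin q, satProb src tgt p w A (fun _ => b) < ∑ _b : Fin q, (1 : ℝ) / q :=
    Finset.sum_lt_sum_of_nonempty Finset.univ_nonempty (fun b _ => hlt b)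
  rw [htot] at this
  simp at this
  have hq' : (q : ℝ) ≠ 0 := by positivity
  rw [mul_inv_cancel₀ hq'] at this
  exact lt_irrefl _ this

/-- the shift game: one vertex on each side, `q` equally likely constraints
`a ↦ (a mod q) + c`, `c ∈ [q]` -/
def shiftProj (q : ℕ) [NeZero q] (c : Fin q) (a : Fin (2 * q)) : Fin q :=
  (finProdFinEquiv.symm a).2 + c

private lemma shift_twoToOne (q : ℕ) [NeZero q] (c : Fin q) : IsTwoToOne (shiftProj q c) := by
  classical
  intro b
  have h1 : (univ.filter (fun a : Fin (2 * q) => shiftProj q c a = b)).card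
      = (univ.filter (fun x : Fin 2 × Fin q => x.2 + c = b)).card := by
    refine Finset.card_equiv finProdFinEquiv.symm ?_
    intro a
    simp [shiftProj]
  rw [h1]
  have h2 : (univ.filter (fun x : Fin 2 × Fin q => x.2 + c = b))
      = (univ : Finset (Fin 2)) ×ˢ ({b - c} : Finset (Fin q)) := by
    ext x
    rw [Finset.mem_filter, Finset.mem_product, Finset.mem_singleton, eq_sub_iff_add_eq]
    simp
  rw [h2, Finset.card_product]
  simp

private lemma shift_value (q : ℕ) [NeZero q] (A : Unit → Fin (2 * q)) (B : Unit → Fin q) :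
    satProb (fun _ : Fin q => ()) (fun _ : Fin q => ()) (shiftProj q) (fun _ => (1 : ℝ) / q) A B
      = 1 / q := by
  classical
  unfold satProb shiftProj
  rw [← Finset.sum_filter]
  have : (univ.filter (fun c : Fin q => (finProdFinEquiv.symm (A ())).2 + c = B ()))
      = {B () - (finProdFinEquiv.symm (A ())).2} := by
    ext c
    simp [eq_sub_iff_add_eq, add_comm]
  rw [this]
  simp

/-- (1) every 2-to-1 game with alphabets `[2q]`, `[q]` has a labeling satisfying constraints of
total probability at least `1/q`; (2) this is attained: in the shift game every labeling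
satisfies exactly `1/q`; (3) for `q = 2` the labels are pairs of bits, resp. bits, and every
constraint of every 2-to-1 game is one nontrivial affine equation over the field with two
elements. -/
theorem result :
    (∀ q : ℕ, 2 ≤ q → ∀ (U V E : Type) [Fintype E] (src : E → U) (tgt : E → V)
        (p : E → Fin (2 * q) → Fin q) (w : E → ℝ),
        (∀ e, IsTwoToOne (p e)) → (∀ e, 0 ≤ w e) → ∑ e, w e = 1 →
        ∃ (A : U → Fin (2 * q)) (B : V → Fin q), (1 : ℝ) / q ≤ satProb src tgt p w A B) ∧
    (∀ q : ℕ, 2 ≤ q → ∃ (p : Fin q → Fin (2 * q) → Fin q) (w : Fin q → ℝ),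
        (∀ e, IsTwoToOne (p e)) ∧ (∀ e, 0 ≤ w e) ∧ ∑ e, w e = 1 ∧
        ∀ (A : Unit → Fin (2 * q)) (B : Unit → Fin q),
          satProb (fun _ : Fin q => ()) (fun _ : Fin q => ()) p w A B = 1 / q) ∧
    (Function.Bijective (fun a : Fin (2 * 2) => (hiBit a, loBit a)) ∧
      Function.Bijective oneBit ∧
      ∀ (U V E : Type) (src : E → U) (tgt : E → V) (p : E → Fin (2 * 2) → Fin 2),
        (∀ e, IsTwoToOne (p e)) →
        ∃ α β γ : E → ZMod 2, (∀ e, α e ≠ 0 ∨ β e ≠ 0) ∧
          ∀ (A : U → Fin (2 * 2)) (B : V → Fin 2) (e : E),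
            p e (A (src e)) = B (tgt e) ↔
              α e * hiBit (A (src e)) + β e * loBit (A (src e)) + oneBit (B (tgt e)) = γ e) := by
  refine ⟨?_, ?_, ?_, ?_, ?_⟩
  · intro q hq U V E _ src tgt p w _ _ hsum
    exact value_ge hq src tgt p w hsum
  · intro q hq
    have : NeZero q := ⟨by omega⟩
    refine ⟨shiftProj q, fun _ => (1 : ℝ) / q, shift_twoToOne q, fun _ => by positivity, ?_,
      shift_value q⟩
    have hq' : (q : ℝ) ≠ 0 := by
      have : 0 < q := by omega
      positivity
    simp [hq']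
  · unfold hiBit loBit
    decide
  · unfold oneBit
    decide
  · intro U V E src tgt p hp
    choose α β γ h1 h2 using fun e => local_affine (p e) (hp e)
    exact ⟨α, β, γ, h1, fun A B e => h2 e _ _⟩

end Vale.Agent.Results.P339.SmallAlphabets
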