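import Vale.Agent.Results.P339.AlphabetStep
import Vale.Agent.Results.P339.SmallAlphabets

/-!
# P339: the facts on the alphabet size of 2-to-1 games, stated together

(1) the game transformation `q → q + 1` with `val(G+) = (2 + val G) / 3`;
(2) every game with alphabets `[2q]`, `[q]` has value at least `1 / q`, and this is sharp;
(3) for `q = 2` every constraint is one affine equation over the field with two elements.
-/

namespace Vale.Agent.Results.P339.AllResults

open Finset

theorem result :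
    (∀ (L R U V E : Type) [Fintype L] [Fintype R] [DecidableEq R] [Fintype E]
      (src : E → U) (tgt : E → V) (p : E → L → R) (w : E → ℝ),
      2 ≤ Fintype.card R → (∀ e, AlphabetStep.IsTwoToOne (p e)) → (∀ e, 0 ≤ w e) →
      ∑ e, w e = 1 →
      ∃ (src' : E × Fin 3 → U ⊕ V) (p' : E × Fin 3 → (L ⊕ Bool) → (R ⊕ Unit)),
        (∀ e', AlphabetStep.IsTwoToOne (p' e')) ∧
        (∀ e' : E × Fin 3, 0 ≤ w e'.1 / 3) ∧ ∑ e' : E × Fin 3, w e'.1 / 3 = 1 ∧
        (∀ (A : U → L) (B : V → R), ∃ (A' : U ⊕ V → L ⊕ Bool) (B' : V → R ⊕ Unit),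
          AlphabetStep.satProb src' (fun e' => tgt e'.1) p' (fun e' => w e'.1 / 3) A' B' =
            (2 + AlphabetStep.satProb src tgt p w A B) / 3) ∧
        (∀ (A' : U ⊕ V → L ⊕ Bool) (B' : V → R ⊕ Unit), ∃ (A : U → L) (B : V → R),
          AlphabetStep.satProb src' (fun e' => tgt e'.1) p' (fun e' => w e'.1 / 3) A' B' ≤
            (2 + AlphabetStep.satProb src tgt p w A B) / 3)) ∧
    (∀ q : ℕ, 2 ≤ q → ∀ (U V E : Type) [Fintype E] (src : E → U) (tgt : E → V)
        (p : E → Fin (2 * q) → Fin q) (w : E → ℝ),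
        (∀ e, SmallAlphabets.IsTwoToOne (p e)) → (∀ e, 0 ≤ w e) → ∑ e, w e = 1 →
        ∃ (A : U → Fin (2 * q)) (B : V → Fin q),
          (1 : ℝ) / q ≤ SmallAlphabets.satProb src tgt p w A B) ∧
    (∀ q : ℕ, 2 ≤ q → ∃ (p : Fin q → Fin (2 * q) → Fin q) (w : Fin q → ℝ),
        (∀ e, SmallAlphabets.IsTwoToOne (p e)) ∧ (∀ e, 0 ≤ w e) ∧ ∑ e, w e = 1 ∧
        ∀ (A : Unit → Fin (2 * q)) (B : Unit → Fin q),
          SmallAlphabets.satProb (fun _ : Fin q => ()) (fun _ : Fin q => ()) p w A B = 1 / q) ∧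
    (Function.Bijective
        (fun a : Fin (2 * 2) => (SmallAlphabets.hiBit a, SmallAlphabets.loBit a)) ∧
      Function.Bijective SmallAlphabets.oneBit ∧
      ∀ (U V E : Type) (src : E → U) (tgt : E → V) (p : E → Fin (2 * 2) → Fin 2),
        (∀ e, SmallAlphabets.IsTwoToOne (p e)) →
        ∃ α β γ : E → ZMod 2, (∀ e, α e ≠ 0 ∨ β e ≠ 0) ∧
          ∀ (A : U → Fin (2 * 2)) (B : V → Fin 2) (e : E),
            p e (A (src e)) = B (tgt e) ↔
              α e * SmallAlphabets.hiBit (A (src e)) + β e * SmallAlphabets.loBit (A (src e))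
                + SmallAlphabets.oneBit (B (tgt e)) = γ e) :=
  ⟨AlphabetStep.result, SmallAlphabets.result⟩

end Vale.Agent.Results.P339.AllResults
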