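import Mathlib

namespace Vale.Agent.Results.P339.AlphabetStep

open Finset

/-- `p : L → R` is 2-to-1: every label on the right has exactly two preimages. -/
def IsTwoToOne {L R : Type} [Fintype L] [DecidableEq R] (p : L → R) : Prop :=
  ∀ b : R, (univ.filter (fun a => p a = b)).card = 2

/-- The probability (with respect to `w`) that a random constraint of the game
`(src, tgt, p, w)` is satisfied by the labeling `(A, B)`. -/
noncomputable def satProb {L R U V E : Type} [Fintype E] [DecidableEq R] (src : E → U)
    (tgt : E → V) (p : E → L → R) (w : E → ℝ) (A : U → L) (B : V → R) : ℝ :=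
  ∑ e, if p e (A (src e)) = B (tgt e) then w e else 0

section gadget

variable {L R : Type} [Fintype L] [Fintype R] [DecidableEq R]

/-- first gadget map -/
def g1 (φ : L ≃ R × Bool) : L ⊕ Bool → R ⊕ Unit
  | Sum.inl a => Sum.inl (φ a).1
  | Sum.inr _ => Sum.inr ()

/-- auxiliary map for the second gadget map -/
def h2 (b1 b2 : R) (x : R × Bool) : R ⊕ Unit :=
  if x.2 = true ∧ (x.1 = b1 ∨ x.1 = b2) then Sum.inr () else Sum.inl x.1

/-- second gadget map -/
def g2 (φ : L ≃ R × Bool) (b1 b2 : R) : L ⊕ Bool → R ⊕ Unit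
  | Sum.inl a => h2 b1 b2 (φ a)
  | Sum.inr t => Sum.inl (if t then b2 else b1)

private lemma card_filter_sum {X Y : Type} [Fintype X] [Fintype Y] (P : X ⊕ Y → Prop)
    [DecidablePred P] :
    (univ.filter P).card = (univ.filter (fun a : X => P (Sum.inl a))).card +
      (univ.filter (fun t : Y => P (Sum.inr t))).card := by
  simp only [Finset.card_filter, Fintype.sum_sum_type]

private lemma card_filter_equiv (φ : L ≃ R × Bool) (P : R × Bool → Prop) [DecidablePred P] :
    (univ.filter (fun a : L => P (φ a))).card =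
      (univ.filter (fun b : R => P (b, false))).card +
        (univ.filter (fun b : R => P (b, true))).card := by
  have h1 : (univ.filter (fun a : L => P (φ a))).card = (univ.filter P).card :=
    Finset.card_equiv φ (by intro a; simp)
  rw [h1]
  simp only [Finset.card_filter, Fintype.sum_prod_type, Fintype.sum_bool, Finset.sum_add_distrib]
  ring

private lemma twoToOne_ext {p : L → R} (hp : IsTwoToOne p) :
    IsTwoToOne (Sum.map p (fun _ : Bool => ())) := by
  intro y
  rw [card_filter_sum]
  rcases y with b | u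
  · simpa using hp b
  · simp

private lemma twoToOne_g1 (φ : L ≃ R × Bool) : IsTwoToOne (g1 φ) := by
  intro y
  rw [card_filter_sum]
  rcases y with b | u
  · have := card_filter_equiv φ (fun x => x.1 = b)
    simp only [g1, Sum.inl.injEq, reduceCtorEq, filter_false, card_empty, add_zero]
    rw [this]
    simp [Finset.filter_eq']
  · simp [g1]

private lemma twoToOne_g2 (φ : L ≃ R × Bool) {b1 b2 : R} (h : b1 ≠ b2) :
    IsTwoToOne (g2 φ b1 b2) := by
  intro y
  rw [card_filter_sum]
  rw [show (univ.filter (fun a : L => g2 φ b1 b2 (Sum.inl a) = y)).card = _ from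
    card_filter_equiv φ (fun x => h2 b1 b2 x = y)]
  rcases y with b | u
  · have e1 : (univ.filter (fun b' : R => h2 b1 b2 (b', false) = Sum.inl b)) = {b} := by
      ext b'; simp [h2]
    have e2 : (univ.filter (fun b' : R => h2 b1 b2 (b', true) = Sum.inl b)) =
        if b = b1 ∨ b = b2 then ∅ else {b} := by
      ext b'
      by_cases hb : b = b1 ∨ b = b2
      · simp only [h2, hb, if_true]
        by_cases hb' : b' = b1 ∨ b' = b2
        · simp [hb']
        · simp only [true_and, hb', if_false, mem_filter, mem_univ, Sum.inl.injEq, notMem_empty,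
            iff_false]
          rintro rfl
          exact hb' hb
      · simp only [h2, hb, if_false]
        by_cases hb' : b' = b1 ∨ b' = b2
        · simp only [true_and, hb', if_true, mem_filter, mem_univ, reduceCtorEq, mem_singleton,
            false_iff]
          rintro rfl
          exact hb hb'
        · simp [hb']
    have e3 : (univ.filter (fun t : Bool => g2 φ b1 b2 (Sum.inr t) = Sum.inl b)).card =
        if b = b1 ∨ b = b2 then 1 else 0 := by
      simp only [g2, Sum.inl.injEq, Finset.card_filter, Fintype.sum_bool]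
      by_cases h1 : b = b1
      · subst h1
        simp [h.symm]
      · by_cases h2' : b = b2
        · subst h2'
          simp [h]
        · simp [h1, h2', Ne.symm h1, Ne.symm h2']
    rw [e1, e2, e3]
    by_cases hb : b = b1 ∨ b = b2 <;> simp [hb]
  · have e1 : (univ.filter (fun b' : R => h2 b1 b2 (b', false) = Sum.inr u)) = ∅ := by
      ext b'; simp [h2]
    have e2 : (univ.filter (fun b' : R => h2 b1 b2 (b', true) = Sum.inr u)) = {b1, b2} := by
      ext b'
      by_cases hb' : b' = b1 ∨ b' = b2
      · simp [h2, hb']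
        tauto
      · simp [h2, hb']
        tauto
    have e3 : (univ.filter (fun t : Bool => g2 φ b1 b2 (Sum.inr t) = Sum.inr u)) = ∅ := by
      ext t; simp [g2]
    rw [e1, e2, e3, Finset.card_pair h]
    simp

private lemma g1_old (φ : L ≃ R × Bool) (b : R) :
    g1 φ (Sum.inl (φ.symm (b, false))) = Sum.inl b := by
  simp [g1]

private lemma g2_old (φ : L ≃ R × Bool) (b1 b2 b : R) :
    g2 φ b1 b2 (Sum.inl (φ.symm (b, false))) = Sum.inl b := by
  simp [g2, h2]

private lemma gadget_new (φ : L ≃ R × Bool) (b1 b2 : R) (x : L ⊕ Bool) (u : Unit)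
    (h1 : g1 φ x = Sum.inr u) : g2 φ b1 b2 x ≠ Sum.inr u := by
  rcases x with a | t
  · simp [g1] at h1
  · simp [g2]

private lemma exists_equiv {p : L → R} (hp : IsTwoToOne p) : Nonempty (L ≃ R × Bool) := by
  have h1 : Fintype.card L = ∑ b : R, (univ.filter (fun a => p a = b)).card := by
    rw [← Finset.card_univ]
    exact Finset.card_eq_sum_card_fiberwise (fun a _ => Finset.mem_univ (p a))
  have h2 : Fintype.card L = Fintype.card (R × Bool) := by
    rw [h1, Finset.sum_congr rfl (fun b _ => hp b)]
    simp
  exact ⟨Fintype.equivOfCardEq h2⟩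

end gadget

/-- From a 2-to-1 game with alphabets `L`, `R` (`|R| = q ≥ 2`, `|L| = 2q`) one gets a 2-to-1 game
with alphabets `L ⊕ Bool`, `R ⊕ Unit` (of sizes `2(q+1)`, `q+1`), vertex sets `U ⊕ V`, `V`, three
constraints of weight `w e / 3` for every old constraint `e`, whose value is `(2 + value) / 3`:
every old labeling extends to a new one with satisfied weight exactly `(2 + old) / 3`, and every
new labeling is dominated in this way by an old one. -/
theorem result :
    ∀ (L R U V E : Type) [Fintype L] [Fintype R] [DecidableEq R] [Fintype E]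
      (src : E → U) (tgt : E → V) (p : E → L → R) (w : E → ℝ),
      2 ≤ Fintype.card R → (∀ e, IsTwoToOne (p e)) → (∀ e, 0 ≤ w e) → ∑ e, w e = 1 →
      ∃ (src' : E × Fin 3 → U ⊕ V) (p' : E × Fin 3 → (L ⊕ Bool) → (R ⊕ Unit)),
        (∀ e', IsTwoToOne (p' e')) ∧
        (∀ e' : E × Fin 3, 0 ≤ w e'.1 / 3) ∧ ∑ e' : E × Fin 3, w e'.1 / 3 = 1 ∧
        (∀ (A : U → L) (B : V → R), ∃ (A' : U ⊕ V → L ⊕ Bool) (B' : V → R ⊕ Unit),
          satProb src' (fun e' => tgt e'.1) p' (fun e' => w e'.1 / 3) A' B' =
            (2 + satProb src tgt p w A B) / 3) ∧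
        (∀ (A' : U ⊕ V → L ⊕ Bool) (B' : V → R ⊕ Unit), ∃ (A : U → L) (B : V → R),
          satProb src' (fun e' => tgt e'.1) p' (fun e' => w e'.1 / 3) A' B' ≤
            (2 + satProb src tgt p w A B) / 3) := by
  intro L R U V E _ _ _ _ src tgt p w hR hp hw hsum
  have hE : Nonempty E := by
    by_contra hne
    rw [not_nonempty_iff] at hne
    simp at hsum
  obtain ⟨e0⟩ := hE
  obtain ⟨φ⟩ := exists_equiv (hp e0)
  obtain ⟨b1, b2, hb⟩ := Fintype.exists_pair_of_one_lt_card (by omega : 1 < Fintype.card R)
  refine ⟨fun e' => ![Sum.inl (src e'.1), Sum.inr (tgt e'.1), Sum.inr (tgt e'.1)] e'.2,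
    fun e' => ![Sum.map (p e'.1) (fun _ : Bool => ()), g1 φ, g2 φ b1 b2] e'.2, ?_, ?_, ?_, ?_, ?_⟩
  · rintro ⟨e, j⟩
    fin_cases j
    · exact twoToOne_ext (hp e)
    · exact twoToOne_g1 φ
    · exact twoToOne_g2 φ hb
  · intro e'
    have := hw e'.1
    positivity
  · rw [Fintype.sum_prod_type]
    simp only [Finset.sum_const, Finset.card_univ, Fintype.card_fin, nsmul_eq_mul]
    rw [← Finset.mul_sum, ← Finset.sum_div, hsum]
    norm_num
  · intro A B
    refine ⟨Sum.elim (fun u => Sum.inl (A u)) (fun v => Sum.inl (φ.symm (B v, false))),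
      fun v => Sum.inl (B v), ?_⟩
    unfold satProb
    rw [Fintype.sum_prod_type]
    simp only [Fin.sum_univ_three, Matrix.cons_val_zero, Matrix.cons_val_one, Matrix.cons_val,
      Sum.elim_inl, Sum.elim_inr, Sum.map_inl, Sum.inl.injEq, g1_old, g2_old, if_true]
    rw [Finset.sum_add_distrib, Finset.sum_add_distrib, ← Finset.sum_div, hsum]
    have : ∑ e, (if p e (A (src e)) = B (tgt e) then w e / 3 else 0) =
        (∑ e, if p e (A (src e)) = B (tgt e) then w e else 0) / 3 := by
      rw [Finset.sum_div]
      refine Finset.sum_congr rfl (fun e _ => ?_)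
      split_ifs <;> simp
    rw [this]
    ring
  · intro A' B'
    refine ⟨fun u => Sum.elim id (fun _ => φ.symm (b1, false)) (A' (Sum.inl u)),
      fun v => Sum.elim id (fun _ => b1) (B' v), ?_⟩
    unfold satProb
    rw [Fintype.sum_prod_type]
    simp only [Fin.sum_univ_three, Matrix.cons_val_zero, Matrix.cons_val_one, Matrix.cons_val]
    have hrhs : (2 + ∑ e, if p e (Sum.elim id (fun _ => φ.symm (b1, false)) (A' (Sum.inl (src e))))
        = Sum.elim id (fun _ => b1) (B' (tgt e)) then w e else 0) / 3 =
        ∑ e, (2 * w e + (if p e (Sum.elim id (fun _ => φ.symm (b1, false)) (A' (Sum.inl (src e))))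
        = Sum.elim id (fun _ => b1) (B' (tgt e)) then w e else 0)) / 3 := by
      rw [← Finset.sum_div, Finset.sum_add_distrib, ← Finset.mul_sum, hsum]
      norm_num
    rw [hrhs]
    refine Finset.sum_le_sum (fun e _ => ?_)
    have hwe := hw e
    have key : Sum.map (p e) (fun _ : Bool => ()) (A' (Sum.inl (src e))) = B' (tgt e) →
        g1 φ (A' (Sum.inr (tgt e))) = B' (tgt e) → g2 φ b1 b2 (A' (Sum.inr (tgt e))) = B' (tgt e) →
        p e (Sum.elim id (fun _ => φ.symm (b1, false)) (A' (Sum.inl (src e))))
          = Sum.elim id (fun _ => b1) (B' (tgt e)) := by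
      intro c0 c1 c2
      rcases hB : B' (tgt e) with b | u
      · rw [hB] at c0
        rcases hA : A' (Sum.inl (src e)) with a | t
        · rw [hA] at c0
          simpa using c0
        · rw [hA] at c0
          simp at c0
      · rw [hB] at c1 c2
        exact absurd c2 (gadget_new φ b1 b2 _ u c1)
    by_cases c0 : Sum.map (p e) (fun _ : Bool => ()) (A' (Sum.inl (src e))) = B' (tgt e) <;>
    by_cases c1 : g1 φ (A' (Sum.inr (tgt e))) = B' (tgt e) <;>
    by_cases c2 : g2 φ b1 b2 (A' (Sum.inr (tgt e))) = B' (tgt e) <;>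
    by_cases c : p e (Sum.elim id (fun _ => φ.symm (b1, false)) (A' (Sum.inl (src e))))
          = Sum.elim id (fun _ => b1) (B' (tgt e)) <;>
    simp only [c0, c1, c2, c, if_true, if_false] <;>
    first
      | linarith
      | exact absurd (key c0 c1 c2) c

end Vale.Agent.Results.P339.AlphabetStep
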